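import Mathlib

namespace Vale.Agent.Lib.P047v

open Finset

noncomputable section

variable {n : ℕ}

/-- The real value of a sign. -/
def sg (u : ℤˣ) : ℝ := ((u : ℤ) : ℝ)

@[simp] lemma sg_one : sg 1 = 1 := by simp [sg]
@[simp] lemma sg_neg_one : sg (-1) = -1 := by simp [sg]

lemma sg_cases (u : ℤˣ) : sg u = 1 ∨ sg u = -1 := by
  rcases Int.units_eq_one_or u with h | h <;> simp [h]

lemma sum_units (g : ℤˣ → ℝ) : ∑ u, g u = g 1 + g (-1) := by
  have : (Finset.univ : Finset ℤˣ) = {1, -1} := by decide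
  rw [this, Finset.sum_pair (by decide)]

/-- The `t`-biased weight of one sign. -/
def wt (t : ℝ) (u : ℤˣ) : ℝ := (1 + t * sg u) / 2

/-- Expectation under the `t`-biased product measure. -/
def EE (t : ℝ) (h : (Fin n → ℤˣ) → ℝ) : ℝ := ∑ x, (∏ i, wt t (x i)) * h x

lemma EE_prod (t : ℝ) (g : Fin n → ℤˣ → ℝ) :
    EE t (fun x => ∏ i, g i (x i)) = ∏ i, ∑ u, wt t u * g i u := by
  unfold EE
  rw [Finset.prod_univ_sum, Fintype.piFinset_univ]
  simp only [Finset.prod_mul_distrib]

lemma EE_sum {ι : Type*} (t : ℝ) (s : Finset ι) (h : ι → (Fin n → ℤˣ) → ℝ) :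
    EE t (fun x => ∑ j ∈ s, h j x) = ∑ j ∈ s, EE t (h j) := by
  unfold EE
  simp_rw [mul_sum]
  rw [sum_comm]

lemma EE_const_mul (t c : ℝ) (h : (Fin n → ℤˣ) → ℝ) :
    EE t (fun x => c * h x) = c * EE t h := by
  unfold EE
  rw [mul_sum]
  refine sum_congr rfl fun x _ => ?_
  ring

lemma EE_one (t : ℝ) : EE t (fun _ : Fin n → ℤˣ => (1 : ℝ)) = 1 := by
  have := EE_prod t (fun (_ : Fin n) (_ : ℤˣ) => (1 : ℝ))
  simp only [prod_const_one] at this
  rw [this]
  apply prod_eq_one
  intro i _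
  rw [sum_units]
  simp [wt]
  ring

lemma wt_nonneg {t : ℝ} (ht : |t| ≤ 1) (u : ℤˣ) : 0 ≤ wt t u := by
  have := abs_le.1 ht
  unfold wt
  rcases sg_cases u with h | h <;> rw [h] <;> linarith

lemma wt_pos {t : ℝ} (ht : |t| < 1) (u : ℤˣ) : 0 < wt t u := by
  have := abs_lt.1 ht
  unfold wt
  rcases sg_cases u with h | h <;> rw [h] <;> linarith

/-- Products of centered coordinates. -/
def psi (t : ℝ) (T : Finset (Fin n)) (x : Fin n → ℤˣ) : ℝ := ∏ i ∈ T, (sg (x i) - t)

lemma psi_eq_prod (t : ℝ) (T : Finset (Fin n)) (x : Fin n → ℤˣ) :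
    psi t T x = ∏ i, (if i ∈ T then (sg (x i) - t) else 1) := by
  unfold psi
  rw [Finset.prod_ite_mem]
  simp

@[simp] lemma psi_empty (t : ℝ) (x : Fin n → ℤˣ) : psi t ∅ x = 1 := by simp [psi]

/-- Orthogonality of the `psi` functions under the biased measure. -/
lemma EE_psi_psi (t : ℝ) (T U : Finset (Fin n)) :
    EE t (fun x => psi t T x * psi t U x) = if T = U then (1 - t ^ 2) ^ T.card else 0 := by
  have h1 : (fun x => psi t T x * psi t U x) =
      fun x : Fin n → ℤˣ => ∏ i, ((if i ∈ T then (sg (x i) - t) else 1) *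
        (if i ∈ U then (sg (x i) - t) else 1)) := by
    funext x
    rw [psi_eq_prod, psi_eq_prod, prod_mul_distrib]
  rw [h1, EE_prod t (fun i u => (if i ∈ T then (sg u - t) else 1) *
        (if i ∈ U then (sg u - t) else 1))]
  have hloc : ∀ i, ∑ u, wt t u * ((if i ∈ T then (sg u - t) else 1) *
        (if i ∈ U then (sg u - t) else 1)) =
      if i ∈ T then (if i ∈ U then 1 - t ^ 2 else 0) else (if i ∈ U then 0 else 1) := by
    intro i
    rw [sum_units]
    by_cases h1 : i ∈ T <;> by_cases h2 : i ∈ U <;> simp [h1, h2, wt] <;> ring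
  simp_rw [hloc]
  split_ifs with h
  · subst h
    have : ∀ i, (if i ∈ T then (if i ∈ T then 1 - t ^ 2 else 0) else (if i ∈ T then 0 else 1)) =
        if i ∈ T then 1 - t ^ 2 else 1 := by
      intro i
      by_cases h : i ∈ T <;> simp [h]
    simp_rw [this]
    rw [Finset.prod_ite_mem]
    simp
  · have hex : ∃ i, (i ∈ T ∧ i ∉ U) ∨ (i ∉ T ∧ i ∈ U) := by
      by_contra hcon
      push Not at hcon
      apply h
      ext i
      have := hcon i
      by_cases h1 : i ∈ T <;> by_cases h2 : i ∈ U <;> simp_all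
    obtain ⟨i, hi⟩ := hex
    apply prod_eq_zero (mem_univ i)
    rcases hi with ⟨h1, h2⟩ | ⟨h1, h2⟩ <;> simp [h1, h2]

lemma EE_psi (t : ℝ) (T : Finset (Fin n)) :
    EE t (psi t T) = if T = ∅ then 1 else 0 := by
  have := EE_psi_psi t T ∅
  simp only [psi_empty, mul_one] at this
  change EE t (fun x => psi t T x) = _
  rw [this]
  split_ifs with h
  · simp [h]
  · rfl

/-- Mean of an expansion. -/
lemma EE_expansion (t : ℝ) (g : Finset (Fin n) → ℝ) :
    EE t (fun x => ∑ T, g T * psi t T x) = g ∅ := by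
  rw [EE_sum]
  have : ∀ T, EE t (fun x => g T * psi t T x) = if T = ∅ then g T else 0 := by
    intro T
    rw [EE_const_mul, EE_psi]
    split_ifs <;> ring
  simp_rw [this]
  simp

/-- Parseval for an expansion. -/
lemma EE_expansion_sq (t : ℝ) (g : Finset (Fin n) → ℝ) :
    EE t (fun x => (∑ T, g T * psi t T x) ^ 2) = ∑ T, g T ^ 2 * (1 - t ^ 2) ^ T.card := by
  have h1 : (fun x => (∑ T, g T * psi t T x) ^ 2) =
      fun x : Fin n → ℤˣ => ∑ T, ∑ U, (g T * g U) * (psi t T x * psi t U x) := by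
    funext x
    rw [sq, sum_mul_sum]
    refine sum_congr rfl fun T _ => sum_congr rfl fun U _ => ?_
    ring
  rw [h1, EE_sum]
  refine sum_congr rfl fun T _ => ?_
  rw [EE_sum]
  simp_rw [EE_const_mul, EE_psi_psi]
  rw [Finset.sum_eq_single T]
  · simp [sq]
  · intro U _ hU
    simp [Ne.symm hU]
  · intro h
    exact absurd (mem_univ T) h

/-- Fourier inversion on the cube. -/
lemma fourier_inversion (F : (Fin n → ℤˣ) → ℝ) (x : Fin n → ℤˣ) :
    ∑ S : Finset (Fin n), ((∑ y, F y * ∏ i ∈ S, sg (y i)) / 2 ^ n) * ∏ i ∈ S, sg (x i) = F x := by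
  have h1 : ∀ y : Fin n → ℤˣ, ∑ S : Finset (Fin n), (∏ i ∈ S, sg (y i)) * ∏ i ∈ S, sg (x i)
      = if y = x then 2 ^ n else 0 := by
    intro y
    have h2 : ∑ S : Finset (Fin n), (∏ i ∈ S, sg (y i)) * ∏ i ∈ S, sg (x i)
        = ∏ i, (1 + sg (y i) * sg (x i)) := by
      rw [Finset.prod_one_add]
      simp [prod_mul_distrib]
    rw [h2]
    split_ifs with h
    · subst h
      have : ∀ i, 1 + sg (y i) * sg (y i) = 2 := by
        intro i
        rcases sg_cases (y i) with h | h <;> rw [h] <;> norm_num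
      simp [this]
    · obtain ⟨i, hi⟩ := Function.ne_iff.1 h
      apply prod_eq_zero (mem_univ i)
      have : y i = - x i := by
        rcases Int.units_eq_one_or (y i) with h1 | h1 <;>
          rcases Int.units_eq_one_or (x i) with h2 | h2 <;> simp_all
      rw [this]
      rcases Int.units_eq_one_or (x i) with h2 | h2 <;> simp [h2]
  calc _ = ∑ S : Finset (Fin n), ∑ y, (F y / 2 ^ n) * ((∏ i ∈ S, sg (y i)) * ∏ i ∈ S, sg (x i)) := by
        refine sum_congr rfl fun S _ => ?_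
        rw [sum_div, sum_mul]
        refine sum_congr rfl fun y _ => ?_
        ring
    _ = ∑ y, (F y / 2 ^ n) * ∑ S : Finset (Fin n), ((∏ i ∈ S, sg (y i)) * ∏ i ∈ S, sg (x i)) := by
        rw [sum_comm]
        refine sum_congr rfl fun y _ => ?_
        rw [mul_sum]
    _ = F x := by
        simp_rw [h1]
        simp
        
end

end Vale.Agent.Lib.P047v
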