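import Vale.Agent.Lib.P047v.Biased

namespace Vale.Agent.Lib.P047v

open Finset

noncomputable section

variable {n : ℕ}

/-- The expansion coefficients at bias `t`. -/
def cc (a : Finset (Fin n) → ℝ) (t : ℝ) (T : Finset (Fin n)) : ℝ :=
  ∑ S, if T ⊆ S then a S * t ^ (S.card - T.card) else 0

lemma expand (a : Finset (Fin n) → ℝ) (t : ℝ) (x : Fin n → ℤˣ) :
    ∑ S, a S * ∏ i ∈ S, sg (x i) = ∑ T, cc a t T * psi t T x := by
  have h1 : ∀ S : Finset (Fin n), ∏ i ∈ S, sg (x i) =
      ∑ T, if T ⊆ S then psi t T x * t ^ (S.card - T.card) else 0 := by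
    intro S
    have h2 : ∏ i ∈ S, sg (x i) = ∏ i ∈ S, ((sg (x i) - t) + t) := by
      refine prod_congr rfl fun i _ => ?_
      ring
    rw [h2, Finset.prod_add, ← Finset.sum_filter]
    have h3 : S.powerset = univ.filter (fun T => T ⊆ S) := by
      ext T; simp
    rw [h3]
    refine sum_congr rfl fun T hT => ?_
    have hT' : T ⊆ S := (mem_filter.1 hT).2
    rw [prod_const, card_sdiff_of_subset hT']
    rfl
  simp_rw [h1, mul_sum]
  rw [sum_comm]
  refine sum_congr rfl fun T _ => ?_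
  unfold cc
  rw [sum_mul]
  refine sum_congr rfl fun S _ => ?_
  split_ifs <;> ring

lemma sum_insert_reindex (i : Fin n) (φ : Finset (Fin n) → ℝ) :
    (∑ U, if i ∉ U then φ (insert i U) else 0) = ∑ T, if i ∈ T then φ T else 0 := by
  rw [← Finset.sum_filter, ← Finset.sum_filter]
  refine Finset.sum_nbij' (fun U => insert i U) (fun T => T.erase i) ?_ ?_ ?_ ?_ ?_
  · intro U hU
    simp
  · intro T hT
    simp
  · intro U hU
    have : i ∉ U := (mem_filter.1 hU).2
    exact erase_insert this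
  · intro T hT
    have : i ∈ T := (mem_filter.1 hT).2
    exact insert_erase this
  · intro U _
    rfl

lemma psi_update_not_mem (t : ℝ) (T : Finset (Fin n)) (x : Fin n → ℤˣ) (i : Fin n) (u : ℤˣ)
    (h : i ∉ T) : psi t T (Function.update x i u) = psi t T x := by
  unfold psi
  refine prod_congr rfl fun j hj => ?_
  have : j ≠ i := fun e => h (e ▸ hj)
  rw [Function.update_of_ne this]

lemma psi_update_mem (t : ℝ) (T : Finset (Fin n)) (x : Fin n → ℤˣ) (i : Fin n) (u : ℤˣ)
    (h : i ∈ T) : psi t T (Function.update x i u) = (sg u - t) * psi t (T.erase i) x := by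
  unfold psi
  rw [← mul_prod_erase T _ h, Function.update_self]
  congr 1
  refine prod_congr rfl fun j hj => ?_
  have : j ≠ i := ne_of_mem_erase hj
  rw [Function.update_of_ne this]

/-- The discrete derivative in direction `i`. -/
def Dp (F : (Fin n → ℤˣ) → ℝ) (i : Fin n) (x : Fin n → ℤˣ) : ℝ :=
  (F (Function.update x i 1) - F (Function.update x i (-1))) / 2

/-- Coefficients of the derivative. -/
def dcoef (c : Finset (Fin n) → ℝ) (i : Fin n) (U : Finset (Fin n)) : ℝ :=
  if i ∉ U then c (insert i U) else 0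

lemma Dp_expand (F : (Fin n → ℤˣ) → ℝ) (c : Finset (Fin n) → ℝ) (t : ℝ)
    (hF : ∀ x, F x = ∑ T, c T * psi t T x) (i : Fin n) (x : Fin n → ℤˣ) :
    Dp F i x = ∑ U, dcoef c i U * psi t U x := by
  unfold Dp
  rw [hF, hF, ← sum_sub_distrib, sum_div]
  have h1 : ∀ T : Finset (Fin n), (c T * psi t T (Function.update x i 1) -
        c T * psi t T (Function.update x i (-1))) / 2 =
      if i ∈ T then c T * psi t (T.erase i) x else 0 := by
    intro T
    by_cases h : i ∈ T
    · rw [psi_update_mem t T x i _ h, psi_update_mem t T x i _ h, if_pos h]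
      simp only [sg_one, sg_neg_one]
      ring
    · rw [psi_update_not_mem t T x i _ h, psi_update_not_mem t T x i _ h, if_neg h]
      ring
  simp_rw [h1]
  rw [← sum_insert_reindex i (fun T => c T * psi t (T.erase i) x)]
  refine sum_congr rfl fun U _ => ?_
  unfold dcoef
  by_cases h : i ∈ U
  · simp [h]
  · simp [h, erase_insert h]

/-- Mean of the derivative. -/
lemma EE_Dp (F : (Fin n → ℤˣ) → ℝ) (c : Finset (Fin n) → ℝ) (t : ℝ)
    (hF : ∀ x, F x = ∑ T, c T * psi t T x) (i : Fin n) :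
    EE t (Dp F i) = c {i} := by
  have : Dp F i = fun x => ∑ U, dcoef c i U * psi t U x := by
    funext x
    exact Dp_expand F c t hF i x
  rw [this, EE_expansion]
  simp [dcoef]

/-- Second moment of the derivative, rescaled. -/
lemma EE_Dp_sq (F : (Fin n → ℤˣ) → ℝ) (c : Finset (Fin n) → ℝ) (t : ℝ)
    (hF : ∀ x, F x = ∑ T, c T * psi t T x) (i : Fin n) :
    (1 - t ^ 2) * EE t (fun x => Dp F i x ^ 2) =
      ∑ T, if i ∈ T then c T ^ 2 * (1 - t ^ 2) ^ T.card else 0 := by
  have : (fun x => Dp F i x ^ 2) = fun x => (∑ U, dcoef c i U * psi t U x) ^ 2 := by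
    funext x
    rw [Dp_expand F c t hF i x]
  rw [this, EE_expansion_sq, ← sum_insert_reindex i, mul_sum]
  refine sum_congr rfl fun U _ => ?_
  unfold dcoef
  by_cases h : i ∈ U
  · simp [h]
  · simp only [h, not_false_eq_true, if_true]
    rw [card_insert_of_notMem h, pow_succ]
    ring

/-- For a sign-valued function the derivative is dominated by its square. -/
lemma Dp_le_sq (F : (Fin n → ℤˣ) → ℝ) (hF : ∀ x, F x = 1 ∨ F x = -1) (i : Fin n)
    (x : Fin n → ℤˣ) : Dp F i x ≤ Dp F i x ^ 2 := by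
  unfold Dp
  rcases hF (Function.update x i 1) with h1 | h1 <;> rcases hF (Function.update x i (-1)) with h2 | h2 <;>
    rw [h1, h2] <;> norm_num

lemma EE_mono {t : ℝ} (ht : |t| ≤ 1) {g h : (Fin n → ℤˣ) → ℝ} (hgh : ∀ x, g x ≤ h x) :
    EE t g ≤ EE t h := by
  unfold EE
  refine sum_le_sum fun x _ => ?_
  refine mul_le_mul_of_nonneg_left (hgh x) ?_
  exact prod_nonneg fun i _ => wt_nonneg ht _

/-- The key inequality: biased Poincare plus sign-valuedness. -/
lemma key_inequality (F : (Fin n → ℤˣ) → ℝ) (hF : ∀ x, F x = 1 ∨ F x = -1)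
    (a : Finset (Fin n) → ℝ) (hinv : ∀ x, ∑ S, a S * ∏ i ∈ S, sg (x i) = F x)
    (d : ℕ) (hdeg : ∀ S : Finset (Fin n), d < S.card → a S = 0)
    (t : ℝ) (ht : |t| < 1) :
    (1 - t ^ 2) * ∑ i, cc a t {i} ≤ d * (1 - (cc a t ∅) ^ 2) := by
  have ht' : 0 < 1 - t ^ 2 := by
    have := abs_lt.1 ht
    nlinarith
  have hexp : ∀ x, F x = ∑ T, cc a t T * psi t T x := fun x => by
    rw [← hinv x, expand]
  -- Parseval for F
  have hpars : ∑ T, cc a t T ^ 2 * (1 - t ^ 2) ^ T.card = 1 := by
    rw [← EE_expansion_sq]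
    have : (fun x => (∑ T, cc a t T * psi t T x) ^ 2) = fun _ : Fin n → ℤˣ => (1 : ℝ) := by
      funext x
      rw [← hexp x]
      rcases hF x with h | h <;> rw [h] <;> norm_num
    rw [this, EE_one]
  -- each mean bounded by second moment
  have hstep : ∀ i, (1 - t ^ 2) * cc a t {i} ≤
      ∑ T, if i ∈ T then cc a t T ^ 2 * (1 - t ^ 2) ^ T.card else 0 := by
    intro i
    rw [← EE_Dp_sq F _ t hexp i, ← EE_Dp F _ t hexp i]
    refine mul_le_mul_of_nonneg_left ?_ ht'.le
    exact EE_mono ht.le (Dp_le_sq F hF i)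
  have hsum : (1 - t ^ 2) * ∑ i, cc a t {i} ≤
      ∑ T : Finset (Fin n), (T.card : ℝ) * (cc a t T ^ 2 * (1 - t ^ 2) ^ T.card) := by
    rw [mul_sum]
    refine (sum_le_sum fun i _ => hstep i).trans ?_
    rw [sum_comm]
    refine le_of_eq (sum_congr rfl fun T _ => ?_)
    rw [Finset.sum_ite_mem]
    simp
  refine hsum.trans ?_
  -- bound by degree
  have hcc : ∀ T : Finset (Fin n), d < T.card → cc a t T = 0 := by
    intro T hT
    unfold cc
    apply sum_eq_zero
    intro S _
    split_ifs with hS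
    · rw [hdeg S (lt_of_lt_of_le hT (card_le_card hS)), zero_mul]
    · rfl
  have hterm : ∀ T : Finset (Fin n), (T.card : ℝ) * (cc a t T ^ 2 * (1 - t ^ 2) ^ T.card) ≤
      (d : ℝ) * (cc a t T ^ 2 * (1 - t ^ 2) ^ T.card) -
        if T = ∅ then (d : ℝ) * cc a t ∅ ^ 2 else 0 := by
    intro T
    by_cases h0 : T = ∅
    · subst h0
      simp
    · rw [if_neg h0, sub_zero]
      by_cases hT : d < T.card
      · rw [hcc T hT]; simp
      · have : (T.card : ℝ) ≤ d := by exact_mod_cast not_lt.1 hT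
        exact mul_le_mul_of_nonneg_right this (by positivity)
  refine (sum_le_sum fun T _ => hterm T).trans (le_of_eq ?_)
  rw [sum_sub_distrib, ← mul_sum, hpars]
  simp
  ring

end

end Vale.Agent.Lib.P047v
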