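import Mathlib

namespace Vale.Agent.Lib.P047v

/-- Fourier coefficient of `f : {1,-1}^n → {1,-1}` at `S`: the average over the cube of
`f x * ∏ i ∈ S, x i`, with signs regarded as the real numbers `1` and `-1`. -/
noncomputable def fourierCoeff {n : ℕ} (f : (Fin n → ℤˣ) → ℤˣ) (S : Finset (Fin n)) : ℝ :=
  (∑ x : Fin n → ℤˣ, ((f x : ℤ) : ℝ) * ∏ i ∈ S, ((x i : ℤ) : ℝ)) / 2 ^ n

end Vale.Agent.Lib.P047v
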