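import Mathlib

namespace Vale.Agent.Lib.P047v

open Finset

noncomputable section

/-- Integrated form of the differential inequality. -/
lemma logit_bound (P P' : ℝ → ℝ) (d : ℕ) (t0 : ℝ) (h0 : 0 ≤ t0) (h1 : t0 < 1)
    (hP : ∀ t, |t| < 1 → HasDerivAt P (P' t) t)
    (hlt : ∀ t, |t| < 1 → -1 < P t ∧ P t < 1)
    (hineq : ∀ t, |t| < 1 → (1 - t ^ 2) * P' t ≤ d * (1 - (P t) ^ 2)) :
    (1 + P t0) * (1 - P (-t0)) ≤
      ((1 + t0) / (1 - t0)) ^ (2 * d) * ((1 - P t0) * (1 + P (-t0))) := by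
  set U : ℝ → ℝ := fun t => Real.log (1 + P t) - Real.log (1 - P t)
    + d * Real.log (1 - t) - d * Real.log (1 + t) with hU
  have hderiv : ∀ t, |t| < 1 → HasDerivAt U
      (P' t / (1 + P t) - (- P' t) / (1 - P t) + d * ((-1) / (1 - t)) - d * (1 / (1 + t))) t := by
    intro t ht
    have ht' := abs_lt.1 ht
    have hPt := hP t ht
    obtain ⟨h3, h4⟩ := hlt t ht
    have e1 : HasDerivAt (fun t => Real.log (1 + P t)) (P' t / (1 + P t)) t :=
      (hPt.const_add 1).log (by linarith)
    have e2 : HasDerivAt (fun t => Real.log (1 - P t)) ((- P' t) / (1 - P t)) t :=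
      (hPt.const_sub 1).log (by linarith)
    have e3 : HasDerivAt (fun t => Real.log (1 - t)) ((-1) / (1 - t)) t :=
      ((hasDerivAt_id t).const_sub 1).log (by simp only [id]; linarith)
    have e4 : HasDerivAt (fun t => Real.log (1 + t)) (1 / (1 + t)) t :=
      ((hasDerivAt_id t).const_add 1).log (by simp only [id]; linarith)
    exact ((e1.sub e2).add (e3.const_mul _)).sub (e4.const_mul _)
  have hnonpos : ∀ t, |t| < 1 →
      P' t / (1 + P t) - (- P' t) / (1 - P t) + d * ((-1) / (1 - t)) - d * (1 / (1 + t)) ≤ 0 := by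
    intro t ht
    have ht' := abs_lt.1 ht
    obtain ⟨h3, h4⟩ := hlt t ht
    have hi := hineq t ht
    have a1 : 0 < 1 + P t := by linarith
    have a2 : 0 < 1 - P t := by linarith
    have a3 : 0 < 1 - t := by linarith
    have a4 : 0 < 1 + t := by linarith
    have e : P' t / (1 + P t) - (- P' t) / (1 - P t) + d * ((-1) / (1 - t)) - d * (1 / (1 + t))
        = 2 * ((1 - t ^ 2) * P' t - d * (1 - (P t) ^ 2)) /
          ((1 + P t) * (1 - P t) * ((1 - t) * (1 + t))) := by
      field_simp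
      ring
    rw [e]
    apply div_nonpos_of_nonpos_of_nonneg
    · linarith
    · positivity
  have hanti : AntitoneOn U (Set.Icc (-t0) t0) := by
    refine antitoneOn_of_deriv_nonpos (convex_Icc _ _) ?_ ?_ ?_
    · intro t ht
      have : |t| < 1 := lt_of_le_of_lt (abs_le.2 ht) h1
      exact (hderiv t this).continuousAt.continuousWithinAt
    · intro t ht
      rw [interior_Icc] at ht
      have : |t| < 1 := lt_of_lt_of_le (abs_lt.2 ht) h1.le
      exact (hderiv t this).differentiableAt.differentiableWithinAt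
    · intro t ht
      rw [interior_Icc] at ht
      have : |t| < 1 := lt_of_lt_of_le (abs_lt.2 ht) h1.le
      rw [(hderiv t this).deriv]
      exact hnonpos t this
  have hmono := hanti (Set.left_mem_Icc.2 (by linarith)) (Set.right_mem_Icc.2 (by linarith))
    (by linarith : -t0 ≤ t0)
  have ht0 : |t0| < 1 := by rw [abs_of_nonneg h0]; exact h1
  have ht0' : |(-t0)| < 1 := by rw [abs_neg]; exact ht0
  obtain ⟨p1, p2⟩ := hlt t0 ht0
  obtain ⟨q1, q2⟩ := hlt (-t0) ht0'
  simp only [hU] at hmono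
  set p := P t0
  set q := P (-t0)
  have a1 : 0 < 1 + p := by linarith
  have a2 : 0 < 1 - p := by linarith
  have b1 : 0 < 1 + q := by linarith
  have b2 : 0 < 1 - q := by linarith
  have c1 : 0 < 1 - t0 := by linarith
  have c2 : 0 < 1 + t0 := by linarith
  have hr : 0 < (1 + t0) / (1 - t0) := div_pos c2 c1
  have hlog : Real.log ((1 + p) * (1 - q)) ≤
      Real.log (((1 + t0) / (1 - t0)) ^ (2 * d) * ((1 - p) * (1 + q))) := by
    rw [Real.log_mul a1.ne' b2.ne', Real.log_mul (by positivity) (by positivity),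
      Real.log_mul a2.ne' b1.ne', Real.log_pow, Real.log_div c2.ne' c1.ne']
    simp only [sub_neg_eq_add] at hmono
    have e1 : (1:ℝ) + -t0 = 1 - t0 := by ring
    rw [e1] at hmono
    push_cast
    linarith
  exact (Real.log_le_log_iff (by positivity) (by positivity)).1 hlog

/-- Elementary inequality. -/
lemma gap_bound (p q K : ℝ) (hp1 : -1 < p) (hp2 : p < 1) (hq1 : -1 < q) (hq2 : q < 1) (hK : 1 ≤ K)
    (h : (1 + p) * (1 - q) ≤ K ^ 2 * ((1 - p) * (1 + q))) :
    p - q ≤ 2 * (K - 1) / (K + 1) := by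
  have hK1 : 0 < K + 1 := by linarith
  rw [le_div_iff₀ hK1]
  set u := p - q with hu
  have hu2 : u < 2 := by rw [hu]; linarith
  have hm : (1 + p) * (1 - q) = (1 - p * q) + u := by rw [hu]; ring
  have hm' : (1 - p) * (1 + q) = (1 - p * q) - u := by rw [hu]; ring
  rw [hm, hm'] at h
  have hpq : 1 - p * q ≤ 1 + u ^ 2 / 4 := by
    rw [hu]
    nlinarith [sq_nonneg (p + q)]
  have hK2 : 0 ≤ K ^ 2 - 1 := by nlinarith
  have h3 : u * (1 + K ^ 2) ≤ (1 + u ^ 2 / 4) * (K ^ 2 - 1) := by
    have : u * (1 + K ^ 2) ≤ (1 - p * q) * (K ^ 2 - 1) := by nlinarith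
    exact this.trans (mul_le_mul_of_nonneg_right hpq hK2)
  have h4 : 0 ≤ ((K - 1) * u / 2 - (K + 1)) * ((K + 1) * u / 2 - (K - 1)) := by nlinarith
  have h5 : (K - 1) * u / 2 - (K + 1) < 0 := by nlinarith
  have h6 : (K + 1) * u / 2 - (K - 1) ≤ 0 := by
    by_contra hcon
    push Not at hcon
    have := mul_neg_of_neg_of_pos h5 hcon
    linarith
  linarith

end

end Vale.Agent.Lib.P047v
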