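import Vale.Agent.Lib.P047v.Riesz3

namespace Vale.Agent.Lib.P047v

open Finset

noncomputable section

lemma theta_zero (d : ℕ) : theta d 0 = Real.pi / (2 * (d : ℝ)) := by
  unfold theta
  simp

/-- Lower bound for the first weight. -/
lemma ww_zero_ge (d : ℕ) (hd : 0 < d) : 4 * (d : ℝ) ^ 2 / Real.pi ^ 2 ≤ ww d 0 := by
  have hd' : (0:ℝ) < d := by exact_mod_cast hd
  have hpos : 0 < 2 - 2 * Real.cos (theta d 0) := by
    have := cos_theta_lt_one d 0 hd (by omega)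
    linarith
  have hle : 2 - 2 * Real.cos (theta d 0) ≤ (theta d 0) ^ 2 := by
    have := Real.one_sub_sq_div_two_le_cos (x := theta d 0)
    linarith
  unfold ww
  rw [le_div_iff₀ hpos]
  have hpi := Real.pi_pos
  have h2 : (theta d 0) ^ 2 = Real.pi ^ 2 / (4 * (d : ℝ) ^ 2) := by
    rw [theta_zero]
    field_simp
    ring
  rw [h2] at hle
  calc 4 * (d : ℝ) ^ 2 / Real.pi ^ 2 * (2 - 2 * Real.cos (theta d 0))
      ≤ 4 * (d : ℝ) ^ 2 / Real.pi ^ 2 * (Real.pi ^ 2 / (4 * (d : ℝ) ^ 2)) :=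
        mul_le_mul_of_nonneg_left hle (by positivity)
    _ = 1 := by field_simp

lemma ratio_mono {a b : ℝ} (ha : 0 ≤ a) (hab : a ≤ b) (hb : b < 1) :
    (1 + a) / (1 - a) ≤ (1 + b) / (1 - b) := by
  have h1 : 0 < 1 - a := by linarith
  have h2 : 0 < 1 - b := by linarith
  rw [div_le_div_iff₀ h1 h2]
  nlinarith

lemma ratio_le_exp {x : ℝ} (h0 : 0 ≤ x) (h1 : x ≤ 1 / 2) :
    (1 + x) / (1 - x) ≤ Real.exp (2 * x + x ^ 2) := by
  have h2 : 0 < 1 - x := by linarith
  rw [div_le_iff₀ h2]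
  have h3 : 1 + x ≤ Real.exp x := by linarith [Real.add_one_le_exp x]
  have hy : 0 ≤ x + x ^ 2 := by positivity
  have h4 : 1 ≤ Real.exp (x + x ^ 2) * (1 - x) := by
    have := Real.quadratic_le_exp_of_nonneg hy
    have h5 : (1 + (x + x ^ 2) + (x + x ^ 2) ^ 2 / 2) * (1 - x) ≤ Real.exp (x + x ^ 2) * (1 - x) :=
      mul_le_mul_of_nonneg_right this h2.le
    have h6 : 1 ≤ (1 + (x + x ^ 2) + (x + x ^ 2) ^ 2 / 2) * (1 - x) := by
      have : (1 + (x + x ^ 2) + (x + x ^ 2) ^ 2 / 2) * (1 - x) - 1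
          = x ^ 2 * ((1 - x) * (1 + x) ^ 2 / 2 - x) := by ring
      have h7 : 0 ≤ (1 - x) * (1 + x) ^ 2 / 2 - x := by nlinarith [mul_nonneg h0 h0, mul_nonneg h0 (sub_nonneg.2 h1)]
      have h8 := mul_nonneg (sq_nonneg x) h7
      linarith
    linarith
  have e : Real.exp (2 * x + x ^ 2) = Real.exp x * Real.exp (x + x ^ 2) := by
    rw [← Real.exp_add]; congr 1; ring
  rw [e, mul_assoc]
  calc 1 + x ≤ Real.exp x * 1 := by linarith
    _ ≤ Real.exp x * (Real.exp (x + x ^ 2) * (1 - x)) :=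
      mul_le_mul_of_nonneg_left h4 (Real.exp_pos x).le

lemma exp_bound : Real.exp (91 / 25) ≤ 39 := by
  have h1 : Real.exp (91 / 25) ^ 25 = Real.exp 1 ^ 91 := by
    rw [← Real.exp_nat_mul, ← Real.exp_nat_mul]
    congr 1
    norm_num
  have h2 : Real.exp 1 ^ 91 ≤ (2.7182818286 : ℝ) ^ 91 :=
    pow_le_pow_left₀ (Real.exp_pos 1).le Real.exp_one_lt_d9.le 91
  have h3 : (2.7182818286 : ℝ) ^ 91 ≤ 39 ^ 25 := by norm_num
  have h4 : Real.exp (91 / 25) ^ 25 ≤ 39 ^ 25 := by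
    rw [h1]; exact h2.trans h3
  exact (pow_le_pow_iff_left₀ (Real.exp_pos _).le (by norm_num) (by norm_num)).1 h4

lemma sin_theta_zero_pos (d : ℕ) (hd : 2 ≤ d) :
    0 < Real.sin (theta d 0) ∧ Real.sin (theta d 0) < 1 := by
  have hd' : (2:ℝ) ≤ d := by exact_mod_cast hd
  have hpi := Real.pi_pos
  have h1 : 0 < theta d 0 := theta_pos d 0 (by omega)
  have h2 : theta d 0 < Real.pi / 2 := by
    rw [theta_zero]
    rw [div_lt_div_iff₀ (by positivity) (by norm_num)]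
    nlinarith
  constructor
  · exact Real.sin_pos_of_pos_of_lt_pi h1 (by linarith)
  · have := Real.sin_lt_sin_of_lt_of_le_pi_div_two (by linarith) le_rfl h2
    rwa [Real.sin_pi_div_two] at this

/-- The numerical bound on `K`. -/
lemma kk_bound (d : ℕ) (hd : 2 ≤ d) :
    ((1 + Real.sin (theta d 0)) / (1 - Real.sin (theta d 0))) ^ d ≤ 39 := by
  obtain ⟨hs0, hs1⟩ := sin_theta_zero_pos d hd
  have hpos : 0 < (1 + Real.sin (theta d 0)) / (1 - Real.sin (theta d 0)) :=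
    div_pos (by linarith) (by linarith)
  have hpi3 := Real.pi_lt_d4
  have hpi4 := Real.pi_gt_d4
  rcases (by omega : d = 2 ∨ d = 3 ∨ d = 4 ∨ 5 ≤ d) with rfl | rfl | rfl | h5
  · have hθ : theta 2 0 = Real.pi / 4 := by rw [theta_zero]; norm_num
    rw [hθ, Real.sin_pi_div_four]
    have hsq : Real.sqrt 2 ^ 2 = 2 := Real.sq_sqrt (by norm_num)
    have hs : Real.sqrt 2 ≤ 1.4143 := by
      have h0 := Real.sqrt_nonneg 2
      nlinarith
    have hr : (1 + Real.sqrt 2 / 2) / (1 - Real.sqrt 2 / 2) ≤ 6 := by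
      rw [div_le_iff₀ (by linarith)]
      linarith
    calc _ ≤ (6:ℝ) ^ 2 := by
          apply pow_le_pow_left₀ _ hr
          apply div_nonneg <;> [skip; skip] <;> nlinarith [Real.sqrt_nonneg 2]
      _ ≤ 39 := by norm_num
  · have hθ : theta 3 0 = Real.pi / 6 := by rw [theta_zero]; norm_num
    rw [hθ, Real.sin_pi_div_six]
    norm_num
  · have hle : Real.sin (theta 4 0) ≤ 0.3928 := by
      have h1 := Real.sin_le (theta_pos 4 0 (by omega)).le
      have h2 : theta 4 0 = Real.pi / 8 := by rw [theta_zero]; norm_num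
      rw [h2] at h1 ⊢
      linarith
    have hr := ratio_mono hs0.le hle (by norm_num)
    have hr2 : (1 + (0.3928:ℝ)) / (1 - 0.3928) ≤ 2.3 := by norm_num
    calc _ ≤ (2.3:ℝ) ^ 4 := pow_le_pow_left₀ hpos.le (hr.trans hr2) 4
      _ ≤ 39 := by norm_num
  · have hd5 : (5:ℝ) ≤ d := by exact_mod_cast h5
    set x := Real.pi / (2 * (d : ℝ)) with hx
    have hθ : theta d 0 = x := theta_zero d
    have hx0 : 0 < x := by positivity
    have hx1 : x ≤ 0.31416 := by
      rw [hx, div_le_iff₀ (by positivity)]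
      nlinarith
    have hle : Real.sin (theta d 0) ≤ x := by
      rw [hθ]; exact Real.sin_le hx0.le
    have hr := ratio_mono hs0.le hle (by linarith)
    have hexp := ratio_le_exp hx0.le (by linarith)
    have hdx : (d : ℝ) * x = Real.pi / 2 := by
      rw [hx]; field_simp
    have hdd : (d : ℕ) * (2 * x + x ^ 2) ≤ 91 / 25 := by
      have : (d : ℝ) * (2 * x + x ^ 2) = 2 * ((d : ℝ) * x) + ((d : ℝ) * x) * x := by ring
      rw [this, hdx]
      nlinarith
    calc _ ≤ (Real.exp (2 * x + x ^ 2)) ^ d := pow_le_pow_left₀ hpos.le (hr.trans hexp) d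
      _ = Real.exp ((d : ℝ) * (2 * x + x ^ 2)) := by rw [← Real.exp_nat_mul]
      _ ≤ Real.exp (91 / 25) := Real.exp_le_exp.2 hdd
      _ ≤ 39 := exp_bound

end

end Vale.Agent.Lib.P047v
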