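import Vale.Agent.Lib.P047v.Defs
import Vale.Agent.Lib.P047v.Biased2
import Vale.Agent.Lib.P047v.Logit
import Vale.Agent.Lib.P047v.Numeric

namespace Vale.Agent.Lib.P047v

open Finset

noncomputable section

variable {n : ℕ}

/-- The diagonal polynomial. -/
def Pf (a : Finset (Fin n) → ℝ) (t : ℝ) : ℝ := ∑ S, a S * t ^ S.card

lemma cc_empty (a : Finset (Fin n) → ℝ) (t : ℝ) : cc a t ∅ = Pf a t := by
  simp [cc, Pf]

lemma Pf_hasDerivAt (a : Finset (Fin n) → ℝ) (t : ℝ) :
    HasDerivAt (Pf a) (∑ i, cc a t {i}) t := by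
  have h : HasDerivAt (Pf a) (∑ S : Finset (Fin n), a S * ((S.card : ℝ) * t ^ (S.card - 1))) t := by
    unfold Pf
    apply HasDerivAt.fun_sum
    intro S _
    exact (hasDerivAt_pow S.card t).const_mul (a S)
  have e : ∑ i, cc a t {i} = ∑ S : Finset (Fin n), a S * ((S.card : ℝ) * t ^ (S.card - 1)) := by
    unfold cc
    rw [sum_comm]
    refine sum_congr rfl fun S _ => ?_
    simp only [singleton_subset_iff, card_singleton]
    rw [Finset.sum_ite_mem]
    simp
    ring
  rw [e]
  exact h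

lemma EE_lt {t : ℝ} (ht : |t| < 1) {g h : (Fin n → ℤˣ) → ℝ} (hgh : ∀ x, g x ≤ h x)
    (hex : ∃ x, g x < h x) : EE t g < EE t h := by
  unfold EE
  obtain ⟨x, hx⟩ := hex
  refine Finset.sum_lt_sum (fun y _ => ?_) ⟨x, mem_univ x, ?_⟩
  · exact mul_le_mul_of_nonneg_left (hgh y) (prod_nonneg fun i _ => (wt_pos ht _).le)
  · exact mul_lt_mul_of_pos_left hx (prod_pos fun i _ => wt_pos ht _)

lemma EE_const (t c : ℝ) : EE t (fun _ : Fin n → ℤˣ => c) = c := by
  have := EE_const_mul t c (fun _ : Fin n → ℤˣ => (1 : ℝ))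
  simpa [EE_one] using this

/-- Singletons among all subsets. -/
lemma sum_card_one (a : Finset (Fin n) → ℝ) :
    (∑ S : Finset (Fin n), if S.card = 1 then a S else 0) = ∑ i, a {i} := by
  rw [← Finset.sum_filter]
  have h : (univ.filter fun S : Finset (Fin n) => S.card = 1) =
      univ.image (fun i : Fin n => ({i} : Finset (Fin n))) := by
    ext S
    simp only [mem_filter, mem_univ, true_and, mem_image, card_eq_one]
    constructor
    · rintro ⟨i, rfl⟩
      exact ⟨i, rfl⟩
    · rintro ⟨i, rfl⟩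
      exact ⟨i, rfl⟩
  rw [h, Finset.sum_image]
  intro i _ j _ hij
  exact singleton_injective hij

theorem main_bound (n d : ℕ) (hd : 2 ≤ d) (f : (Fin n → ℤˣ) → ℤˣ)
    (hdeg : ∀ S : Finset (Fin n), d < S.card → fourierCoeff f S = 0) :
    ∑ i, fourierCoeff f {i} ≤ (24 / 25 : ℝ) * d := by
  have hd0 : 0 < d := by omega
  have hdR : (0:ℝ) < d := by exact_mod_cast hd0
  set a : Finset (Fin n) → ℝ := fourierCoeff f with ha
  set F : (Fin n → ℤˣ) → ℝ := fun x => sg (f x) with hFdef
  have hF : ∀ x, F x = 1 ∨ F x = -1 := fun x => sg_cases (f x)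
  have hinv : ∀ x, ∑ S, a S * ∏ i ∈ S, sg (x i) = F x := fun x => fourier_inversion F x
  have hexp : ∀ t x, F x = ∑ T, cc a t T * psi t T x := fun t x => by
    rw [← hinv x, expand]
  have hmean : ∀ t, EE t F = Pf a t := by
    intro t
    have : F = fun x => ∑ T, cc a t T * psi t T x := by
      funext x
      exact hexp t x
    rw [← cc_empty, ← EE_expansion t (cc a t), ← this]
  have hFabs : ∀ x, -1 ≤ F x ∧ F x ≤ 1 := by
    intro x
    rcases hF x with h | h <;> rw [h] <;> norm_num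
  have hPbd : ∀ t, |t| ≤ 1 → |Pf a t| ≤ 1 := by
    intro t ht
    rw [← hmean, abs_le]
    constructor
    · have := EE_mono (n := n) ht (g := fun _ => (-1 : ℝ)) (h := F) (fun x => (hFabs x).1)
      rwa [EE_const] at this
    · have := EE_mono (n := n) ht (g := F) (h := fun _ => (1 : ℝ)) (fun x => (hFabs x).2)
      rwa [EE_const] at this
  -- the Riesz bound
  have hriesz := riesz_bound d hd0 (univ : Finset (Finset (Fin n))) a (fun S => S.card)
    (fun S _ h => by
      by_contra hcon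
      exact h (hdeg S (not_le.1 hcon)))
    (fun k _ => hPbd _ (Real.abs_sin_le_one _))
  rw [sum_card_one] at hriesz
  set t0 := Real.sin (theta d 0) with ht0
  obtain ⟨ht0pos, ht0lt⟩ := sin_theta_zero_pos d hd
  rw [← ht0] at ht0pos ht0lt
  set p := ∑ S : Finset (Fin n), a S * t0 ^ S.card with hp
  set q := ∑ S : Finset (Fin n), a S * (-t0) ^ S.card with hq
  have hpP : p = Pf a t0 := rfl
  have hqP : q = Pf a (-t0) := rfl
  set K := ((1 + t0) / (1 - t0)) ^ d with hK
  have hKle : K ≤ 39 := kk_bound d hd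
  have hr1 : 1 ≤ (1 + t0) / (1 - t0) := by
    rw [le_div_iff₀ (by linarith)]
    linarith
  have hK1 : 1 ≤ K := one_le_pow₀ hr1
  -- the gap bound
  have hgap : p - q ≤ 2 * (K - 1) / (K + 1) := by
    by_cases hconst : (∃ x, F x = 1) ∧ (∃ y, F y = -1)
    · obtain ⟨⟨x1, hx1⟩, ⟨x2, hx2⟩⟩ := hconst
      have hlt : ∀ t, |t| < 1 → -1 < Pf a t ∧ Pf a t < 1 := by
        intro t ht
        rw [← hmean]
        constructor
        · have := EE_lt (n := n) ht (g := fun _ => (-1 : ℝ)) (h := F) (fun x => (hFabs x).1)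
            ⟨x1, by rw [hx1]; norm_num⟩
          rwa [EE_const] at this
        · have := EE_lt (n := n) ht (g := F) (h := fun _ => (1 : ℝ)) (fun x => (hFabs x).2)
            ⟨x2, by rw [hx2]; norm_num⟩
          rwa [EE_const] at this
      have hineq : ∀ t, |t| < 1 → (1 - t ^ 2) * (∑ i, cc a t {i}) ≤ d * (1 - (Pf a t) ^ 2) := by
        intro t ht
        have := key_inequality F hF a hinv d (fun S hS => hdeg S hS) t ht
        rwa [cc_empty] at this
      have hlog := logit_bound (Pf a) (fun t => ∑ i, cc a t {i}) d t0 ht0pos.le ht0lt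
        (fun t _ => Pf_hasDerivAt a t) hlt hineq
      have ht0abs : |t0| < 1 := by rw [abs_of_pos ht0pos]; exact ht0lt
      have ht0abs' : |(-t0)| < 1 := by rw [abs_neg]; exact ht0abs
      have hp1 := hlt t0 ht0abs
      have hq1 := hlt (-t0) ht0abs'
      rw [hpP, hqP]
      refine gap_bound _ _ K hp1.1 hp1.2 hq1.1 hq1.2 hK1 ?_
      rw [hK, ← pow_mul, mul_comm d 2]
      exact hlog
    · have hcst : ∃ c, ∀ x, F x = c := by
        by_cases h1 : ∃ x, F x = 1
        · refine ⟨1, fun x => ?_⟩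
          rcases hF x with h | h
          · exact h
          · exact absurd ⟨h1, ⟨x, h⟩⟩ hconst
        · refine ⟨-1, fun x => ?_⟩
          rcases hF x with h | h
          · exact absurd ⟨x, h⟩ h1
          · exact h
      obtain ⟨c, hc⟩ := hcst
      have hFc : F = fun _ => c := funext hc
      have hpc : p = c := by rw [hpP, ← hmean, hFc, EE_const]
      have hqc : q = c := by rw [hqP, ← hmean, hFc, EE_const]
      rw [hpc, hqc, sub_self]
      apply div_nonneg <;> linarith
  have hgap2 : p - q ≤ 19 / 10 := by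
    refine hgap.trans ?_
    rw [div_le_iff₀ (by linarith)]
    linarith
  -- conclusion
  have hw := ww_zero_ge d hd0
  have hwpos : 0 < ww d 0 := ww_pos d 0 hd0 (by omega)
  have hpi := Real.pi_lt_d4
  have hpi0 := Real.pi_pos
  have hw2 : (2 / 5 : ℝ) * d ^ 2 ≤ ww d 0 := by
    refine le_trans ?_ hw
    rw [le_div_iff₀ (by positivity)]
    have : Real.pi ^ 2 ≤ 10 := by nlinarith
    have hd2 : (0:ℝ) ≤ (d:ℝ) ^ 2 := by positivity
    nlinarith
  have hfinal : (d : ℝ) * ∑ i, a {i} ≤ (d : ℝ) * ((24 / 25 : ℝ) * d) := by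
    have h1 : ww d 0 * (p - q) ≤ ww d 0 * (19 / 10) :=
      mul_le_mul_of_nonneg_left hgap2 hwpos.le
    have h2 := hriesz
    nlinarith
  exact le_of_mul_le_mul_left hfinal hdR

end

end Vale.Agent.Lib.P047v
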