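import Mathlib

namespace Vale.Agent.Lib.P047v

open Finset

noncomputable section

/-- The node angles `(2k+1)π/(2d)`. -/
def theta (d k : ℕ) : ℝ := (2 * (k : ℝ) + 1) * Real.pi / (2 * (d : ℝ))

/-- The nodes on the unit circle. -/
def zn (d k : ℕ) : ℂ := Complex.exp (Complex.I * (theta d k : ℂ))

lemma zn_eq (d k : ℕ) (hd : 0 < d) :
    zn d k = Complex.exp (Complex.I * (Real.pi : ℂ) / (2 * (d : ℂ))) *
      (Complex.exp (2 * (Real.pi : ℂ) * Complex.I / ((2 * d : ℕ) : ℂ))) ^ k := by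
  have hd' : (d : ℂ) ≠ 0 := by exact_mod_cast hd.ne'
  unfold zn theta
  rw [← Complex.exp_nat_mul, ← Complex.exp_add]
  congr 1
  push_cast
  field_simp
  ring

lemma zn_pow_two_d (d k : ℕ) (hd : 0 < d) : zn d k ^ (2 * d) = -1 := by
  have hd' : (d : ℂ) ≠ 0 := by exact_mod_cast hd.ne'
  unfold zn theta
  rw [← Complex.exp_nat_mul]
  have : ((2 * d : ℕ) : ℂ) * (Complex.I * (((2 * (k : ℝ) + 1) * Real.pi / (2 * (d : ℝ)) : ℝ) : ℂ))
      = (k : ℂ) * (2 * Real.pi * Complex.I) + (Real.pi * Complex.I) := by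
    push_cast
    field_simp
  rw [this, Complex.exp_add, Complex.exp_nat_mul, Complex.exp_two_pi_mul_I, one_pow, one_mul,
    Complex.exp_pi_mul_I]

lemma zn_ne_zero (d k : ℕ) : zn d k ≠ 0 := Complex.exp_ne_zero _

/-- Power sums over the nodes vanish unless the exponent is a multiple of `2d`. -/
lemma sum_zn_pow (d a : ℕ) (hd : 0 < d) (ha : ¬ (2 * d) ∣ a) :
    ∑ k ∈ range (2 * d), zn d k ^ a = 0 := by
  have h2d : 2 * d ≠ 0 := by omega
  set ω : ℂ := Complex.exp (2 * (Real.pi : ℂ) * Complex.I / ((2 * d : ℕ) : ℂ)) with hω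
  have hprim : IsPrimitiveRoot ω (2 * d) := Complex.isPrimitiveRoot_exp (2 * d) h2d
  set ζ : ℂ := Complex.exp (Complex.I * (Real.pi : ℂ) / (2 * (d : ℂ))) with hζ
  have hne : ω ^ a ≠ 1 := by
    intro h
    exact ha ((hprim.pow_eq_one_iff_dvd a).1 h)
  have hpow : (ω ^ a) ^ (2 * d) = 1 := by
    rw [← pow_mul, mul_comm, pow_mul, hprim.pow_eq_one, one_pow]
  have hgeom : ∑ k ∈ range (2 * d), (ω ^ a) ^ k = 0 := by
    rw [geom_sum_eq hne, hpow]
    simp
  calc ∑ k ∈ range (2 * d), zn d k ^ a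
      = ∑ k ∈ range (2 * d), ζ ^ a * (ω ^ a) ^ k := by
        refine sum_congr rfl fun k _ => ?_
        rw [zn_eq d k hd, mul_pow, ← pow_mul, ← pow_mul, mul_comm a k]
    _ = ζ ^ a * ∑ k ∈ range (2 * d), (ω ^ a) ^ k := by rw [mul_sum]
    _ = 0 := by rw [hgeom, mul_zero]

lemma sum_zn_pow_two_d (d : ℕ) (hd : 0 < d) :
    ∑ k ∈ range (2 * d), zn d k ^ (2 * d) = -(2 * (d : ℂ)) := by
  simp only [zn_pow_two_d d _ hd]
  simp

/-- `B(z) = 1 + z + ... + z^(2d-1)`. -/
def bb (d : ℕ) (z : ℂ) : ℂ := ∑ a ∈ range (2 * d), z ^ a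

lemma one_sub_mul_bb (d k : ℕ) (hd : 0 < d) : (1 - zn d k) * bb d (zn d k) = 2 := by
  unfold bb
  have := mul_neg_geom_sum (zn d k) (2 * d)
  rw [this, zn_pow_two_d d k hd]
  ring

/-- Key counting lemma: for `1 ≤ m ≤ 2d` the sum of `z^m B(z)` over the nodes is `-2d`. -/
lemma sum_zn_pow_mul_bb (d m : ℕ) (hd : 0 < d) (hm1 : 1 ≤ m) (hm2 : m ≤ 2 * d) :
    ∑ k ∈ range (2 * d), zn d k ^ m * bb d (zn d k) = -(2 * (d : ℂ)) := by
  unfold bb
  calc ∑ k ∈ range (2 * d), zn d k ^ m * ∑ a ∈ range (2 * d), zn d k ^ a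
      = ∑ a ∈ range (2 * d), ∑ k ∈ range (2 * d), zn d k ^ (m + a) := by
        simp_rw [mul_sum, pow_add]
        rw [sum_comm]
    _ = ∑ k ∈ range (2 * d), zn d k ^ (m + (2 * d - m)) := by
        refine Finset.sum_eq_single (2 * d - m) ?_ ?_
        · intro a ha hne
          have ha' := mem_range.1 ha
          refine sum_zn_pow d (m + a) hd ?_
          intro hdvd
          obtain ⟨c, hc⟩ := hdvd
          have hc1 : c = 1 := by
            have h1 : 2 * d * c < 2 * d * 2 := by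
              rw [← hc]; omega
            have h2 : 0 < 2 * d * c := by
              rw [← hc]; omega
            have hlt : c < 2 := lt_of_mul_lt_mul_left h1 (Nat.zero_le _)
            have hpos : 0 < c := Nat.pos_of_mul_pos_left h2 |> fun h => by
              rcases Nat.eq_zero_or_pos c with h0 | h0
              · rw [h0] at h2; simp at h2
              · exact h0
            omega
          rw [hc1] at hc
          omega
        · intro h
          exact absurd (mem_range.2 (by omega)) h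
    _ = -(2 * (d : ℂ)) := by
        have : m + (2 * d - m) = 2 * d := by omega
        rw [this, sum_zn_pow_two_d d hd]

end

end Vale.Agent.Lib.P047v
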