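import Vale.Agent.Lib.P047v.Riesz

namespace Vale.Agent.Lib.P047v

open Finset Polynomial

noncomputable section

/-- The weights `1/(2-2cos θ_k)`. -/
def ww (d k : ℕ) : ℝ := 1 / (2 - 2 * Real.cos (theta d k))

lemma theta_pos (d k : ℕ) (hd : 0 < d) : 0 < theta d k := by
  unfold theta
  have : (0:ℝ) < d := by exact_mod_cast hd
  positivity

lemma theta_lt (d k : ℕ) (hd : 0 < d) (hk : k < 2 * d) : theta d k < 2 * Real.pi := by
  unfold theta
  have hd' : (0:ℝ) < d := by exact_mod_cast hd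
  have hk' : (k:ℝ) + 1 ≤ 2 * d := by exact_mod_cast hk
  rw [div_lt_iff₀ (by positivity)]
  have hpi := Real.pi_pos
  nlinarith

lemma cos_theta_lt_one (d k : ℕ) (hd : 0 < d) (hk : k < 2 * d) : Real.cos (theta d k) < 1 := by
  refine lt_of_le_of_ne (Real.cos_le_one _) ?_
  intro h
  have h0 := theta_pos d k hd
  have h1 := theta_lt d k hd hk
  have := (Real.cos_eq_one_iff_of_lt_of_lt (by linarith) h1).1 h
  linarith

lemma ww_pos (d k : ℕ) (hd : 0 < d) (hk : k < 2 * d) : 0 < ww d k := by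
  unfold ww
  have := cos_theta_lt_one d k hd hk
  apply div_pos one_pos
  linarith

lemma zn_ne_one (d k : ℕ) (hd : 0 < d) (hk : k < 2 * d) : zn d k ≠ 1 := by
  intro h
  have hc := cos_theta_lt_one d k hd hk
  have : Real.cos (theta d k) = 1 := by
    have h2 := congrArg Complex.re h
    unfold zn at h2
    rw [mul_comm, Complex.exp_mul_I] at h2
    simpa [← Complex.ofReal_cos, ← Complex.ofReal_sin] using h2
  linarith

lemma zn_add_inv (d k : ℕ) :
    zn d k + (zn d k)⁻¹ = 2 * (Real.cos (theta d k) : ℂ) := by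
  unfold zn
  rw [← Complex.exp_neg]
  rw [Complex.ofReal_cos, Complex.cos]
  have : -(Complex.I * (theta d k : ℂ)) = -(theta d k : ℂ) * Complex.I := by ring
  rw [this, mul_comm Complex.I]
  ring

lemma zn_sub_inv (d k : ℕ) :
    (Real.sin (theta d k) : ℂ) = ((zn d k) ^ 2 - 1) / (2 * Complex.I * zn d k) := by
  have hz := zn_ne_zero d k
  have hI := Complex.I_ne_zero
  have h1 : (Real.sin (theta d k) : ℂ) = (zn d k - (zn d k)⁻¹) / (2 * Complex.I) := by
    unfold zn
    rw [← Complex.exp_neg, Complex.ofReal_sin, Complex.sin]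
    have h3 : -(Complex.I * (theta d k : ℂ)) = -(theta d k : ℂ) * Complex.I := by ring
    rw [h3, mul_comm Complex.I]
    generalize Complex.exp ((theta d k : ℂ) * Complex.I) = e1
    generalize Complex.exp (-(theta d k : ℂ) * Complex.I) = e2
    field_simp
    have hII : Complex.I ^ 2 = -1 := Complex.I_sq
    linear_combination (e2 - e1) * hII
  rw [h1]
  field_simp

/-- The weights in terms of nodes. -/
lemma ww_eq (d k : ℕ) (hd : 0 < d) (hk : k < 2 * d) :
    (ww d k : ℂ) = - zn d k / (1 - zn d k) ^ 2 := by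
  have hz := zn_ne_zero d k
  have h1 := zn_ne_one d k hd hk
  have h1' : 1 - zn d k ≠ 0 := sub_ne_zero.2 (Ne.symm h1)
  have hc := cos_theta_lt_one d k hd hk
  have hne : (2 - 2 * (Real.cos (theta d k) : ℂ)) ≠ 0 := by
    have : (2 - 2 * Real.cos (theta d k) : ℝ) ≠ 0 := by
      have : 0 < 2 - 2 * Real.cos (theta d k) := by linarith
      exact this.ne'
    exact_mod_cast this
  have hcos : (Real.cos (theta d k) : ℂ) = (zn d k + (zn d k)⁻¹) / 2 := by
    rw [zn_add_inv]; ring
  unfold ww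
  rw [Complex.ofReal_div, Complex.ofReal_sub, Complex.ofReal_mul, hcos]
  rw [hcos] at hne
  push_cast
  have hne2 : 2 - 2 * ((zn d k + (zn d k)⁻¹) / 2) = -((1 - zn d k) ^ 2 / zn d k) := by
    field_simp
    ring
  rw [hne2]
  field_simp

/-- `z_k^d = I (-1)^k`. -/
lemma zn_pow_d (d k : ℕ) (hd : 0 < d) :
    zn d k ^ d = Complex.I * (((-1 : ℝ) ^ k : ℝ) : ℂ) := by
  have hd' : (d : ℂ) ≠ 0 := by exact_mod_cast hd.ne'
  unfold zn theta
  rw [← Complex.exp_nat_mul]
  have : (d : ℂ) * (Complex.I * (((2 * (k : ℝ) + 1) * Real.pi / (2 * (d : ℝ)) : ℝ) : ℂ))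
      = ((Real.pi : ℂ) / 2 * Complex.I) + (k : ℂ) * ((Real.pi : ℂ) * Complex.I) := by
    push_cast
    field_simp
    ring
  rw [this, Complex.exp_add, Complex.exp_nat_mul, Complex.exp_pi_mul_I,
    Complex.exp_pi_div_two_mul_I]
  push_cast
  ring

end

end Vale.Agent.Lib.P047v
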