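import Vale.Agent.Lib.P047v.Riesz2

namespace Vale.Agent.Lib.P047v

open Finset Polynomial

noncomputable section

lemma sum_eval_eq_zero (d : ℕ) (hd : 0 < d) (G : ℂ[X]) (h0 : G.eval 0 = 0)
    (hdeg : G.natDegree < 2 * d) :
    ∑ k ∈ range (2 * d), G.eval (zn d k) = 0 := by
  simp_rw [Polynomial.eval_eq_sum_range' hdeg]
  rw [sum_comm]
  apply sum_eq_zero
  intro a ha
  rw [← mul_sum]
  rcases Nat.eq_zero_or_pos a with rfl | hpos
  · have : G.coeff 0 = 0 := by rw [Polynomial.coeff_zero_eq_eval_zero, h0]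
    rw [this, zero_mul]
  · rw [sum_zn_pow d a hd ?_, mul_zero]
    intro hdvd
    have := Nat.le_of_dvd hpos hdvd
    have := mem_range.1 ha
    omega

lemma ee_eq (d k : ℕ) (hd : 0 < d) :
    (((-1 : ℝ) ^ k : ℝ) : ℂ) = - Complex.I * zn d k ^ d := by
  rw [zn_pow_d d k hd, ← mul_assoc]
  simp

lemma sin_eq' (d k : ℕ) :
    (Real.sin (theta d k) : ℂ) = - Complex.I * ((zn d k) ^ 2 - 1) / (2 * zn d k) := by
  have hz := zn_ne_zero d k
  rw [zn_sub_inv]
  have hI := Complex.I_ne_zero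
  field_simp
  have hJ : Complex.I ^ 2 = -1 := Complex.I_sq
  linear_combination (zn d k ^ 2 - 1) * hJ

/-- `A_j = 0` for `2 ≤ j ≤ d`. -/
lemma sum_A_high (d j r : ℕ) (hdj : d = j + 2 + r) :
    ∑ k ∈ range (2 * d), ((-1 : ℝ) ^ k) * ww d k * (Real.sin (theta d k)) ^ (j + 2) = 0 := by
  have hd : 0 < d := by omega
  set G : ℂ[X] := X ^ (r + 1) * (1 + X) ^ 2 * (X ^ 2 - 1) ^ j with hG
  have hG0 : G.eval 0 = 0 := by
    simp [hG, pow_succ]
  have hGdeg : G.natDegree < 2 * d := by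
    have : G.natDegree ≤ (r + 1) + 2 + 2 * j := by
      rw [hG]
      compute_degree
      omega
    omega
  have hsum := sum_eval_eq_zero d hd G hG0 hGdeg
  have key : ∀ k ∈ range (2 * d),
      (((-1 : ℝ) ^ k * ww d k * (Real.sin (theta d k)) ^ (j + 2) : ℝ) : ℂ) =
        (Complex.I ^ (j + 3) * (-1) ^ (j + 2) / 2 ^ (j + 2)) * G.eval (zn d k) := by
    intro k hk
    have hk' := mem_range.1 hk
    have hz := zn_ne_zero d k
    have h1 : (1 - zn d k) ≠ 0 := sub_ne_zero.2 (Ne.symm (zn_ne_one d k hd hk'))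
    rw [Complex.ofReal_mul, Complex.ofReal_mul, ee_eq d k hd, ww_eq d k hd hk', Complex.ofReal_pow,
      sin_eq']
    have hev : G.eval (zn d k) =
        zn d k ^ (r + 1) * (1 + zn d k) ^ 2 * (zn d k ^ 2 - 1) ^ j := by
      simp [hG]
    rw [hev, hdj]
    have hfac : (zn (j + 2 + r) k) ^ 2 - 1 = - (1 - zn (j + 2 + r) k) * (1 + zn (j + 2 + r) k) := by
      ring
    rw [hdj] at hz h1
    generalize zn (j + 2 + r) k = z at *
    rw [div_pow, mul_pow (-Complex.I), pow_succ (z ^ 2 - 1) (j + 1), pow_succ (z ^ 2 - 1) j]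
    rw [mul_pow 2 z]
    field_simp
    rw [hfac]
    ring
  have hcast : ((∑ k ∈ range (2 * d), ((-1 : ℝ) ^ k) * ww d k * (Real.sin (theta d k)) ^ (j + 2) : ℝ) : ℂ) = 0 := by
    rw [Complex.ofReal_sum, sum_congr rfl key, ← mul_sum, hsum, mul_zero]
  exact_mod_cast hcast

/-- Inverse of `1 - z` on the nodes. -/
lemma inv_one_sub (d k : ℕ) (hd : 0 < d) : (1 - zn d k)⁻¹ = bb d (zn d k) / 2 := by
  have h := one_sub_mul_bb d k hd
  have h1 : (1 - zn d k) ≠ 0 := by
    intro h0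
    rw [h0, zero_mul] at h
    norm_num at h
  field_simp
  linear_combination (-1 : ℂ) * h

/-- `A_1 = d`. -/
lemma sum_A_one (d : ℕ) (hd : 0 < d) :
    ∑ k ∈ range (2 * d), ((-1 : ℝ) ^ k) * ww d k * Real.sin (theta d k) = d := by
  have key : ∀ k ∈ range (2 * d),
      (((-1 : ℝ) ^ k * ww d k * Real.sin (theta d k) : ℝ) : ℂ) =
        - (1 / 4) * (zn d k ^ d * bb d (zn d k)) - (1 / 4) * (zn d k ^ (d + 1) * bb d (zn d k)) := by
    intro k hk
    have hk' := mem_range.1 hk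
    have hz := zn_ne_zero d k
    have h1 : (1 - zn d k) ≠ 0 := sub_ne_zero.2 (Ne.symm (zn_ne_one d k hd hk'))
    have hb : bb d (zn d k) = 2 * (1 - zn d k)⁻¹ := by
      rw [inv_one_sub d k hd]; ring
    rw [Complex.ofReal_mul, Complex.ofReal_mul, ee_eq d k hd, ww_eq d k hd hk', sin_eq', hb]
    generalize zn d k = z at *
    field_simp
    have hJ : Complex.I ^ 2 = -1 := Complex.I_sq
    linear_combination (4 * z ^ d * (1 - z ^ 2)) * hJ
  have hcast : ((∑ k ∈ range (2 * d), ((-1 : ℝ) ^ k) * ww d k * Real.sin (theta d k) : ℝ) : ℂ) = d := by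
    rw [Complex.ofReal_sum, sum_congr rfl key, sum_sub_distrib, ← mul_sum, ← mul_sum,
      sum_zn_pow_mul_bb d d hd hd (by omega), sum_zn_pow_mul_bb d (d + 1) hd (by omega) (by omega)]
    ring
  exact_mod_cast hcast

/-- Total weight `d^2`. -/
lemma sum_ww (d : ℕ) (hd : 0 < d) :
    ∑ k ∈ range (2 * d), ww d k = (d : ℝ) ^ 2 := by
  have key : ∀ k ∈ range (2 * d),
      ((ww d k : ℝ) : ℂ) = ∑ a ∈ range (2 * d), - (1 / 4) * (zn d k ^ (a + 1) * bb d (zn d k)) := by
    intro k hk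
    have hk' := mem_range.1 hk
    have hz := zn_ne_zero d k
    have h1 : (1 - zn d k) ≠ 0 := sub_ne_zero.2 (Ne.symm (zn_ne_one d k hd hk'))
    have hb : bb d (zn d k) = 2 * (1 - zn d k)⁻¹ := by
      rw [inv_one_sub d k hd]; ring
    have hsum : ∑ a ∈ range (2 * d), - (1 / 4) * (zn d k ^ (a + 1) * bb d (zn d k))
        = - (1 / 4) * zn d k * bb d (zn d k) * bb d (zn d k) := by
      have hB : bb d (zn d k) = ∑ a ∈ range (2 * d), zn d k ^ a := rfl
      calc ∑ a ∈ range (2 * d), - (1 / 4) * (zn d k ^ (a + 1) * bb d (zn d k))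
          = (- (1 / 4) * zn d k * bb d (zn d k)) * ∑ a ∈ range (2 * d), zn d k ^ a := by
            rw [mul_sum]
            refine sum_congr rfl fun a _ => ?_
            rw [pow_succ]
            ring
        _ = _ := by rw [← hB]
    rw [hsum, ww_eq d k hd hk', hb]
    field_simp
    ring
  have hcast : ((∑ k ∈ range (2 * d), ww d k : ℝ) : ℂ) = ((d : ℝ) ^ 2 : ℝ) := by
    rw [Complex.ofReal_sum, sum_congr rfl key, sum_comm]
    have : ∀ a ∈ range (2 * d), ∑ k ∈ range (2 * d), - (1 / 4 : ℂ) * (zn d k ^ (a + 1) * bb d (zn d k))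
        = (d : ℂ) / 2 := by
      intro a ha
      have ha' := mem_range.1 ha
      rw [← mul_sum, sum_zn_pow_mul_bb d (a + 1) hd (by omega) (by omega)]
      ring
    rw [sum_congr rfl this]
    simp
    ring
  exact_mod_cast hcast

lemma theta_reflect (d k : ℕ) (hd : 0 < d) (hk : k < 2 * d) :
    theta d (2 * d - 1 - k) = 2 * Real.pi - theta d k := by
  unfold theta
  have hd' : (d : ℝ) ≠ 0 := by exact_mod_cast hd.ne'
  have h : ((2 * d - 1 - k : ℕ) : ℝ) = 2 * (d : ℝ) - 1 - k := by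
    rw [Nat.sub_sub, Nat.cast_sub (by omega)]
    push_cast
    ring
  rw [h]
  field_simp
  ring

lemma ww_reflect (d k : ℕ) (hd : 0 < d) (hk : k < 2 * d) :
    ww d (2 * d - 1 - k) = ww d k := by
  unfold ww
  rw [theta_reflect d k hd hk, Real.cos_two_pi_sub]

lemma ee_reflect (d k : ℕ) (hk : k < 2 * d) :
    (-1 : ℝ) ^ (2 * d - 1 - k) = - (-1 : ℝ) ^ k := by
  have h : (-1 : ℝ) ^ (2 * d - 1 - k) * (-1) ^ k * (-1) = 1 := by
    rw [← pow_add, ← pow_succ, show 2 * d - 1 - k + k + 1 = 2 * d by omega, pow_mul]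
    norm_num
  rcases neg_one_pow_eq_or ℝ k with h1 | h1 <;> rw [h1] at h ⊢ <;> linarith

/-- `A_0 = 0`. -/
lemma sum_A_zero (d : ℕ) (hd : 0 < d) :
    ∑ k ∈ range (2 * d), ((-1 : ℝ) ^ k) * ww d k = 0 := by
  have h : ∑ k ∈ range (2 * d), (-1 : ℝ) ^ (2 * d - 1 - k) * ww d (2 * d - 1 - k)
      = ∑ k ∈ range (2 * d), ((-1 : ℝ) ^ k) * ww d k :=
    Finset.sum_range_reflect (fun k => ((-1 : ℝ) ^ k) * ww d k) (2 * d)
  have h2 : ∑ k ∈ range (2 * d), (-1 : ℝ) ^ (2 * d - 1 - k) * ww d (2 * d - 1 - k)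
      = - ∑ k ∈ range (2 * d), ((-1 : ℝ) ^ k) * ww d k := by
    rw [← sum_neg_distrib]
    refine sum_congr rfl fun k hk => ?_
    have hk' := mem_range.1 hk
    rw [ww_reflect d k hd hk', ee_reflect d k hk']
    ring
  rw [h2] at h
  linarith

/-- The general moment formula. -/
lemma sum_A (d j : ℕ) (hd : 0 < d) (hj : j ≤ d) :
    ∑ k ∈ range (2 * d), ((-1 : ℝ) ^ k) * ww d k * (Real.sin (theta d k)) ^ j
      = if j = 1 then (d : ℝ) else 0 := by
  rcases j with _ | _ | j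
  · simpa using sum_A_zero d hd
  · simpa using sum_A_one d hd
  · have := sum_A_high d j (d - (j + 2)) (by omega)
    simpa using this

/-- M. Riesz interpolation for sums of monomials of degree at most `d`. -/
lemma riesz_sum {ι : Type*} (d : ℕ) (hd : 0 < d) (s : Finset ι) (a : ι → ℝ) (deg : ι → ℕ)
    (hdeg : ∀ i ∈ s, a i ≠ 0 → deg i ≤ d) :
    ∑ k ∈ range (2 * d), ((-1 : ℝ) ^ k) * ww d k * ∑ i ∈ s, a i * (Real.sin (theta d k)) ^ deg i
      = d * ∑ i ∈ s, if deg i = 1 then a i else 0 := by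
  calc _ = ∑ i ∈ s, a i * ∑ k ∈ range (2 * d), ((-1 : ℝ) ^ k) * ww d k * (Real.sin (theta d k)) ^ deg i := by
        simp_rw [mul_sum]
        rw [sum_comm]
        refine sum_congr rfl fun i _ => sum_congr rfl fun k _ => ?_
        ring
    _ = ∑ i ∈ s, a i * (if deg i = 1 then (d : ℝ) else 0) := by
        refine sum_congr rfl fun i hi => ?_
        by_cases h0 : a i = 0
        · simp [h0]
        · rw [sum_A d (deg i) hd (hdeg i hi h0)]
    _ = _ := by
        rw [mul_sum]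
        refine sum_congr rfl fun i _ => ?_
        split_ifs <;> ring

/-- The main consequence used below: separating the two nodes closest to `0`. -/
lemma riesz_bound {ι : Type*} (d : ℕ) (hd : 0 < d) (s : Finset ι) (a : ι → ℝ) (deg : ι → ℕ)
    (hdeg : ∀ i ∈ s, a i ≠ 0 → deg i ≤ d)
    (hbd : ∀ k ∈ range (2 * d), |∑ i ∈ s, a i * (Real.sin (theta d k)) ^ deg i| ≤ 1) :
    (d : ℝ) * ∑ i ∈ s, (if deg i = 1 then a i else 0)
      ≤ (d : ℝ) ^ 2 - 2 * ww d 0 + ww d 0 *
        (∑ i ∈ s, a i * (Real.sin (theta d 0)) ^ deg i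
          - ∑ i ∈ s, a i * (- Real.sin (theta d 0)) ^ deg i) := by
  set P : ℝ → ℝ := fun t => ∑ i ∈ s, a i * t ^ deg i with hP
  have hform := riesz_sum d hd s a deg hdeg
  have h0mem : 0 ∈ range (2 * d) := mem_range.2 (by omega)
  have hlast : 2 * d - 1 ∈ (range (2 * d)).erase 0 :=
    mem_erase.2 ⟨by omega, mem_range.2 (by omega)⟩
  have hlast_sin : Real.sin (theta d (2 * d - 1)) = - Real.sin (theta d 0) := by
    have := theta_reflect d 0 hd (by omega)
    rw [Nat.sub_zero] at this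
    rw [this, Real.sin_two_pi_sub]
  have hlast_w : ww d (2 * d - 1) = ww d 0 := by
    have := ww_reflect d 0 hd (by omega)
    rwa [Nat.sub_zero] at this
  have hlast_e : (-1 : ℝ) ^ (2 * d - 1) = -1 := by
    have := ee_reflect d 0 (by omega)
    simpa using this
  have hsplit1 : ∀ f : ℕ → ℝ, ∑ k ∈ range (2 * d), f k
      = f 0 + (f (2 * d - 1) + ∑ k ∈ ((range (2 * d)).erase 0).erase (2 * d - 1), f k) := by
    intro f
    rw [← Finset.add_sum_erase _ _ h0mem, ← Finset.add_sum_erase _ _ hlast]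
  have hrest : ∑ k ∈ ((range (2 * d)).erase 0).erase (2 * d - 1),
        ((-1 : ℝ) ^ k) * ww d k * P (Real.sin (theta d k))
      ≤ ∑ k ∈ ((range (2 * d)).erase 0).erase (2 * d - 1), ww d k := by
    refine sum_le_sum fun k hk => ?_
    have hk1 : k ∈ range (2 * d) := mem_of_mem_erase (mem_of_mem_erase hk)
    have hk2 := mem_range.1 hk1
    have hw := (ww_pos d k hd hk2).le
    have hb := abs_le.1 (hbd k hk1)
    rcases neg_one_pow_eq_or ℝ k with h1 | h1 <;> rw [h1]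
    · have : P (Real.sin (theta d k)) ≤ 1 := hb.2
      nlinarith
    · have : -1 ≤ P (Real.sin (theta d k)) := hb.1
      nlinarith
  have hw := hsplit1 (fun k => ww d k)
  rw [sum_ww d hd] at hw
  have hf := hsplit1 (fun k => ((-1 : ℝ) ^ k) * ww d k * P (Real.sin (theta d k)))
  simp only [hP] at hf hrest hw ⊢
  rw [hform, hlast_sin, hlast_w, hlast_e] at hf
  rw [hlast_w] at hw
  simp only [pow_zero, one_mul] at hf
  rw [hf]
  nlinarith

end

end Vale.Agent.Lib.P047v
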